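import Vale.Agent.P033D.Core

/-!
# P033: the derived sequence of a circulant Hadamard matrix

Let `h` be the first row of a circulant Hadamard matrix of order `n` and
`χ(j) = h(j) h(j + n/2)`. For every shift `s` other than `0` and `n/2` the number of `j` modulo `n`
with `χ(j + s) ≠ χ(j)` is congruent to `n` modulo `8`.
-/

namespace Vale.Agent.Results.P033.B_DerivedPeriod

/-- `h` is the first row of a circulant Hadamard matrix of order `n`. -/
def IsRow {n : ℕ} [NeZero n] (h : ZMod n → ℤ) : Prop :=
  (∀ j, h j = 1 ∨ h j = -1) ∧ ∀ t : ZMod n, t ≠ 0 → ∑ j, h j * h (j + t) = 0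

/-- The element `n / 2` of `ℤ / n`. -/
def half (n : ℕ) : ZMod n := ((n / 2 : ℕ) : ZMod n)

/-- The derived sequence `χ(j) = h(j) h(j + n/2)`. -/
def derived {n : ℕ} (h : ZMod n → ℤ) (j : ZMod n) : ℤ := h j * h (j + half n)

/-- For the first row `h` of a circulant Hadamard matrix of order `n`:
(1) for every shift `s` other than `0` and `n/2`, the number of `j` with `χ(j + s) ≠ χ(j)` is
congruent to `n` modulo `8`;
(2) if `16` does not divide `n`, then `0` and `n/2` are the only periods of `χ`;
(3) if `16` does not divide `n`, then `h` is not a product `b c` of sign sequences where `b` has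
period `n/2` and `c` has a period `q ≠ 0`. -/
theorem result :
    ∀ (n : ℕ) [NeZero n] (h : ZMod n → ℤ), IsRow h →
      (∀ s : ZMod n, s ≠ 0 → s ≠ half n →
        (8 : ℤ) ∣ n - ({j : ZMod n | derived h (j + s) ≠ derived h j}.ncard : ℤ)) ∧
      (¬ 16 ∣ n → ∀ s : ZMod n, (∀ j, derived h (j + s) = derived h j) →
        s = 0 ∨ s = half n) ∧
      (¬ 16 ∣ n → ∀ (b c : ZMod n → ℤ) (q : ZMod n), (∀ j, b j = 1 ∨ b j = -1) →
        (∀ j, c j = 1 ∨ c j = -1) → (∀ j, h j = b j * c j) → (∀ j, b (j + half n) = b j) →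
        (∀ j, c (j + q) = c j) → q = 0) := by
  intro n _ h hh
  refine ⟨fun s h0 hH => ?_, fun h16 s hper => ?_, fun h16 b c q hb hc hbc hbp hcp => ?_⟩
  · have h1 := Vale.P033D.main h hh.1 hh.2 s (half n) rfl h0 hH
    have h2 : {j : ZMod n | derived h (j + s) ≠ derived h j} =
        ((Finset.univ.filter fun j : ZMod n =>
          h (j + s) * h (j + s + half n) ≠ h j * h (j + half n) : Finset (ZMod n)) :
          Set (ZMod n)) := by
      ext j
      simp [derived]
    rw [h2, Set.ncard_coe_finset]
    exact h1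
  · exact Vale.P033D.period h hh.1 hh.2 h16 s (half n) rfl hper
  · exact Vale.P033D.product h b c hh.1 hh.2 h16 q (half n) rfl hb hc hbc hbp hcp

end Vale.Agent.Results.P033.B_DerivedPeriod
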