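import Vale.Agent.P033.FR

/-!
P033: two structured classes of first rows of circulant Hadamard matrices.
-/

namespace Vale.Agent.Results.P033.ProductRows

/-- the circulant matrix with first row `h` -/
def circulant {n : ℕ} (h : ZMod n → ℤ) : Matrix (ZMod n) (ZMod n) ℤ :=
  Matrix.of fun i j => h (j - i)

/-- `h` is the first row of a circulant Hadamard matrix of order `n` -/
def IsHadamardRow {n : ℕ} [NeZero n] (h : ZMod n → ℤ) : Prop :=
  (∀ j, h j = 1 ∨ h j = -1) ∧ circulant h * (circulant h).transpose = (n : ℤ) • 1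

/-- Let `h_0, …, h_{n-1}` be the first row of a circulant Hadamard matrix of order `n = m L` and
let `q`, `r` be signs.
(1) If `m, L ≥ 2`, then `h` differs from the product row `q_k r_l` (at the position
`m l + k`) in at least `L / 6` positions; in particular `h` is not a product row.
(2) If `m, L ≥ 4` are even, then `h` is not the row `(-1)^{k l} q_k r_l` (at the positions
`m l + k`, `0 ≤ k < m`, `0 ≤ l < L`). -/
theorem result (m L : ℕ) [NeZero (m * L)] (h : ZMod (m * L) → ℤ) (hh : IsHadamardRow h)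
    (q r : ℕ → ℤ) (hq : ∀ k < m, q k = 1 ∨ q k = -1) (hr : ∀ l < L, r l = 1 ∨ r l = -1) :
    (2 ≤ m → 2 ≤ L → L ≤ 6 * (Finset.univ.filter fun j : ZMod (m * L) =>
      h j ≠ q (j.val % m) * r (j.val / m)).card) ∧
    (Even m → Even L → 4 ≤ m → 4 ≤ L →
      ¬ ∀ k < m, ∀ l < L, h ((m * l + k : ℕ) : ZMod (m * L)) = (-1) ^ (k * l) * q k * r l) := by
  refine ⟨fun hm hL => ?_, fun hm hL hm4 hL4 hc => ?_⟩
  · exact_mod_cast Vale.P033.prod_dist hm hL h hh.1 hh.2 q r hq hr
  · have hfr : ∀ j : ℕ, h (j : ZMod (m * L)) = Vale.P033.FR.fr m L q r j := by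
      intro j
      have hmL : 0 < m * L := by positivity
      have hj' : j % (m * L) < m * L := Nat.mod_lt _ hmL
      have h1 : ((j % (m * L) : ℕ) : ZMod (m * L)) = (j : ZMod (m * L)) := ZMod.natCast_mod j (m * L)
      have h2 : m * (j % (m * L) / m) + j % (m * L) % m = j % (m * L) :=
        Nat.div_add_mod (j % (m * L)) m
      have h3 := hc (j % (m * L) % m) (Nat.mod_lt _ (by omega)) (j % (m * L) / m)
        (Nat.div_lt_of_lt_mul hj')
      rw [h2, h1, Nat.mod_mul_right_mod, Nat.mod_mul_right_div_self] at h3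
      rw [h3]
      unfold Vale.P033.FR.fr
      rw [pow_mul' (-1 : ℤ) (j % m) (j / m % L), Vale.P033.FR.sign_mod hL, ← pow_mul']
    refine Vale.P033.FR.main hm hm4 hL hL4 q r hq hr fun t ht0 ht => ?_
    have h1 := Vale.P033.autocorr_nat h hh.2 t ht0 ht
    rw [← h1]
    refine Finset.sum_congr rfl fun j _ => ?_
    rw [hfr, hfr]

end Vale.Agent.Results.P033.ProductRows
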