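import Vale.Agent.P033.FR
import Vale.Agent.P033.Half

/-!
P033: structure of the first rows of circulant Hadamard matrices.
-/

namespace Vale.Agent.Results.P033.StructuredRows

/-- the circulant matrix with first row `h` -/
def circulant {n : ℕ} (h : ZMod n → ℤ) : Matrix (ZMod n) (ZMod n) ℤ :=
  Matrix.of fun i j => h (j - i)

/-- `h` is the first row of a circulant Hadamard matrix of order `n` -/
def IsHadamardRow {n : ℕ} [NeZero n] (h : ZMod n → ℤ) : Prop :=
  (∀ j, h j = 1 ∨ h j = -1) ∧ circulant h * (circulant h).transpose = (n : ℤ) • 1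

/-- the positions `j` at which `h` changes sign under the shift by half the order `2 N` -/
def Neg {N : ℕ} (h : ZMod (2 * N) → ℤ) (j : ℕ) : Prop :=
  h ((j + N : ℕ) : ZMod (2 * N)) = -h (j : ZMod (2 * N))

instance {N : ℕ} (h : ZMod (2 * N) → ℤ) (j : ℕ) : Decidable (Neg h j) := by
  unfold Neg
  infer_instance

/-- (A) Let `h` be the first row of a circulant Hadamard matrix of order `m L` and `q`, `r` signs.
(1) If `m, L ≥ 2`, then `h` differs from the product row `q_k r_l` (at the position `m l + k`)
in at least `L / 6` positions. (2) If `m, L ≥ 4` are even, then `h` is not the row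
`(-1)^{k l} q_k r_l`.
(B) Let `h` be the first row of a circulant Hadamard matrix of order `2 N` and let `D` be the set
of `j` with `h_{j+N} = - h_j`. (1) Exactly half of the `j` in `{0, …, N-1}` lie in `D`.
(2) For `0 < s < N` the number of `j` in `{0, …, N-1}` with `j, j + s ∈ D` is even.
(3) If `8 ∤ 2 N`, then `D` is not invariant under the shift by `s`, for every `0 < s < N`. -/
theorem result :
    (∀ (m L : ℕ) [NeZero (m * L)] (h : ZMod (m * L) → ℤ), IsHadamardRow h →
      ∀ q r : ℕ → ℤ, (∀ k < m, q k = 1 ∨ q k = -1) → (∀ l < L, r l = 1 ∨ r l = -1) →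
      (2 ≤ m → 2 ≤ L → L ≤ 6 * (Finset.univ.filter fun j : ZMod (m * L) =>
        h j ≠ q (j.val % m) * r (j.val / m)).card) ∧
      (Even m → Even L → 4 ≤ m → 4 ≤ L →
        ¬ ∀ k < m, ∀ l < L, h ((m * l + k : ℕ) : ZMod (m * L)) = (-1) ^ (k * l) * q k * r l)) ∧
    (∀ (N : ℕ) [NeZero (2 * N)] (h : ZMod (2 * N) → ℤ), IsHadamardRow h →
      2 * ((Finset.range N).filter fun j => Neg h j).card = N ∧
      (∀ s, 0 < s → s < N →
        Even ((Finset.range N).filter fun j => Neg h j ∧ Neg h (j + s)).card) ∧
      (¬ 8 ∣ 2 * N → ∀ s, 0 < s → s < N → ∃ j, ¬ (Neg h j ↔ Neg h (j + s)))) := by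
  constructor
  · intro m L _ h hh q r hq hr
    refine ⟨fun hm hL => ?_, fun hm hL hm4 hL4 hc => ?_⟩
    · exact_mod_cast Vale.P033.prod_dist hm hL h hh.1 hh.2 q r hq hr
    · have hfr : ∀ j : ℕ, h (j : ZMod (m * L)) = Vale.P033.FR.fr m L q r j := by
        intro j
        have hmL : 0 < m * L := by positivity
        have hj' : j % (m * L) < m * L := Nat.mod_lt _ hmL
        have h1 : ((j % (m * L) : ℕ) : ZMod (m * L)) = (j : ZMod (m * L)) :=
          ZMod.natCast_mod j (m * L)
        have h2 : m * (j % (m * L) / m) + j % (m * L) % m = j % (m * L) :=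
          Nat.div_add_mod (j % (m * L)) m
        have h3 := hc (j % (m * L) % m) (Nat.mod_lt _ (by omega)) (j % (m * L) / m)
          (Nat.div_lt_of_lt_mul hj')
        rw [h2, h1, Nat.mod_mul_right_mod, Nat.mod_mul_right_div_self] at h3
        rw [h3]
        unfold Vale.P033.FR.fr
        rw [pow_mul' (-1 : ℤ) (j % m) (j / m % L), Vale.P033.FR.sign_mod hL, ← pow_mul']
      refine Vale.P033.FR.main hm hm4 hL hL4 q r hq hr fun t ht0 ht => ?_
      have h1 := Vale.P033.autocorr_nat h hh.2 t ht0 ht
      rw [← h1]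
      refine Finset.sum_congr rfl fun j _ => ?_
      rw [hfr, hfr]
  · intro N _ h hh
    have hN : 0 < N := by
      rcases Nat.eq_zero_or_pos N with h0 | h0
      · subst h0
        exact absurd rfl (NeZero.ne (2 * 0))
      · exact h0
    set H : ℕ → ℤ := fun j => h (j : ZMod (2 * N)) with hH
    have hs : ∀ j, H j = 1 ∨ H j = -1 := fun j => hh.1 _
    have hper : ∀ j, H (j + (N + N)) = H j := by
      intro j
      show h ((j + (N + N) : ℕ) : ZMod (2 * N)) = h (j : ZMod (2 * N))
      have h0 : ((N + N : ℕ) : ZMod (2 * N)) = 0 := by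
        have := ZMod.natCast_self (2 * N)
        rw [← this]
        congr 1
        ring
      rw [Nat.cast_add j (N + N), h0, add_zero]
    have hr : Finset.range (N + N) = Finset.range (2 * N) := by rw [two_mul]
    have hz : ∀ t, 0 < t → t < 2 * N → ∑ j ∈ Finset.range (N + N), H j * H (j + t) = 0 := by
      intro t h0 h1
      rw [hr]
      exact Vale.P033.autocorr_nat h hh.2 t h0 h1
    have hA := Vale.P033.Half.count_half H hs hper (hz N hN (by omega))
    have hB : ∀ s, 0 < s → s < N →
        Even ((Finset.range N).filter fun j => Neg h j ∧ Neg h (j + s)).card := by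
      intro s h0 h1
      exact Vale.P033.Half.count_even H hs s hper (hz s h0 (by omega)) (hz (s + N) (by omega)
        (by omega))
    refine ⟨hA, hB, fun h8 s h0 h1 => ?_⟩
    by_contra hcon
    push Not at hcon
    have h2 := hB s h0 h1
    have h3 : ((Finset.range N).filter fun j => Neg h j ∧ Neg h (j + s)) =
        (Finset.range N).filter fun j => Neg h j := by
      refine Finset.filter_congr fun j _ => ?_
      rw [← hcon j, and_self]
    rw [h3] at h2
    have hA' : 2 * ((Finset.range N).filter fun j => Neg h j).card = N := hA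
    obtain ⟨c, hc⟩ := h2
    exact h8 ⟨c / 2, by omega⟩

end Vale.Agent.Results.P033.StructuredRows
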